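import Vale.Agent.P208.Combine

open Metric Set

namespace Vale.Agent.Results.P208.NoDimensionReduction

/-- The Lang-Plaut question has a negative answer: a doubling subset of Hilbert space need not
admit a bi-Lipschitz embedding into any finite dimensional Euclidean space. -/
theorem result :
    ∃ X : Set (lp (fun _ : ℕ => ℝ) 2),
      (∃ N : ℕ, ∀ x ∈ X, ∀ r : ℝ, 0 < r →
        ∃ t : Finset (lp (fun _ : ℕ => ℝ) 2),
          ↑t ⊆ X ∧ t.card ≤ N ∧ X ∩ closedBall x r ⊆ ⋃ c ∈ t, ball c (r / 2)) ∧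
      ∀ (k : ℕ) (f : X → EuclideanSpace ℝ (Fin k)) (a D : ℝ), 0 < a →
        ¬ ∀ x y : X, a * dist x y ≤ dist (f x) (f y) ∧ dist (f x) (f y) ≤ D * (a * dist x y) :=
  Vale.Agent.P208.exists_counterexample

end Vale.Agent.Results.P208.NoDimensionReduction
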